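import Vale.Agent.P279.Final

namespace Vale.Agent.Results.P279.Nagata
open Vale.Agent.P279

theorem result (r : ℕ) (hr : 10 ≤ r) :
    ∃ Z : ℕ → Set (Fin r → Plane), (∀ n, ZClosed (Z n) ∧ Z n ≠ U r) ∧
      ∀ p ∈ U r, (∀ n, p ∉ Z n) → ∀ d : ℕ, 1 ≤ d → ∀ F : MvPolynomial (Fin 3) ℂ, F ≠ 0 →
        F.IsHomogeneous d → ∀ m : Fin r → ℕ, (∀ i, m i ≤ mult F (p i)) →
          ((∑ i, m i : ℕ) : ℝ) < d * Real.sqrt r :=
  reduce (D := Polynomial KK) r hr (main r hr)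

end Vale.Agent.Results.P279.Nagata
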